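import Vale.Agent.P275.R2.H894.Rows

/-!
# Row LD: the logarithmic derivative
-/

namespace Vale.Agent.P275.R2.H855

open Filter Topology Vale.Agent.P275.H341 Vale.Agent.P275.R2.H894
open scoped BigOperators

theorem ld_zero (a : ℕ → ℂ) : ld a 0 = 0 := by
  unfold ld
  rw [mul_assoc, PowerSeries.coeff_zero_eq_constantCoeff_apply, map_mul,
    PowerSeries.constantCoeff_X, zero_mul]

theorem ld_sum (a : ℕ → ℂ) (h0 : a 0 = 1) (k : ℕ) :
    ∑ p ∈ Finset.HasAntidiagonal.antidiagonal (k + 1), ld a p.1 * a p.2 = ((k + 1 : ℕ) : ℂ) * a (k + 1) := by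
  have hc : PowerSeries.constantCoeff (PowerSeries.mk a) ≠ 0 := by
    rw [← PowerSeries.coeff_zero_eq_constantCoeff_apply, PowerSeries.coeff_mk, h0]
    exact one_ne_zero
  have h1 : (PowerSeries.X * PowerSeries.derivative ℂ (PowerSeries.mk a) *
      (PowerSeries.mk a)⁻¹) * PowerSeries.mk a =
      PowerSeries.X * PowerSeries.derivative ℂ (PowerSeries.mk a) := by
    rw [mul_assoc, PowerSeries.inv_mul_cancel _ hc, mul_one]
  have h2 := congrArg (PowerSeries.coeff (k + 1)) h1
  rw [PowerSeries.coeff_mul, PowerSeries.coeff_succ_X_mul, PowerSeries.coeff_derivative] at h2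
  simp only [PowerSeries.coeff_mk] at h2
  unfold ld
  rw [h2]
  push_cast
  ring

theorem tri (i j : ℕ) :
    (i + j) * (i + j + 1) / 2 = i * (i + 1) / 2 + j * (j + 1) / 2 + i * j := by
  have h1 := Nat.div_mul_cancel (Nat.even_mul_succ_self i).two_dvd
  have h2 := Nat.div_mul_cancel (Nat.even_mul_succ_self j).two_dvd
  have h3 := Nat.div_mul_cancel (Nat.even_mul_succ_self (i + j)).two_dvd
  have h4 : (i + j) * (i + j + 1) = i * (i + 1) + j * (j + 1) + 2 * (i * j) := by ring
  omega

theorem tri_le {c i j : ℕ} (hc : 2 ≤ c) (hi : 1 ≤ i) (hj : 1 ≤ j) :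
    c * (i * (i + 1) / 2) + c * (j * (j + 1) / 2) + 2 ≤ c * ((i + j) * (i + j + 1) / 2) := by
  rw [tri]
  have h1 : 1 ≤ i * j := Nat.mul_pos hi hj
  nlinarith [Nat.mul_le_mul hc h1]

/-- Row LD. -/
theorem rowLD : RowLD := by
  intro a c β hc h0 ha k
  induction k using Nat.strong_induction_on with
  | _ k ih =>
    intro hk
    obtain ⟨n, rfl⟩ : ∃ n, k = n + 1 := ⟨k - 1, by omega⟩
    have hrec : ∀ q, ld (a q) (n + 1) = ((n + 1 : ℕ) : ℂ) * a q (n + 1) + (-1) *
        ∑ p ∈ (Finset.HasAntidiagonal.antidiagonal (n + 1)).filter (fun p => p.2 ≠ 0),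
          ld (a q) p.1 * a q p.2 := by
      intro q
      have h1 := ld_sum (a q) (h0 q) n
      rw [← Finset.sum_filter_add_sum_filter_not _ (fun p : ℕ × ℕ => p.2 ≠ 0)] at h1
      have h2 : ((Finset.HasAntidiagonal.antidiagonal (n + 1)).filter (fun p : ℕ × ℕ => ¬ (p.2 ≠ 0))) =
          {(n + 1, 0)} := by
        ext p
        simp only [Finset.mem_filter, Finset.HasAntidiagonal.mem_antidiagonal, Finset.mem_singleton, not_not]
        constructor
        · rintro ⟨h3, h4⟩
          exact Prod.ext (by simp only; omega) h4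
        · rintro rfl
          exact ⟨rfl, rfl⟩
      rw [h2, Finset.sum_singleton, h0 q, mul_one] at h1
      linear_combination h1
    have hsum : Ex (fun q => ∑ p ∈ (Finset.HasAntidiagonal.antidiagonal (n + 1)).filter (fun p => p.2 ≠ 0),
        ld (a q) p.1 * a q p.2) (c * ((n + 1) * (n + 1 + 1) / 2)) 0 0 := by
      have := Ex.sum ((Finset.HasAntidiagonal.antidiagonal (n + 1)).filter (fun p : ℕ × ℕ => p.2 ≠ 0))
        (F := fun p q => ld (a q) p.1 * a q p.2) (A := c * ((n + 1) * (n + 1 + 1) / 2))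
        (α := fun _ => 0) (β := fun _ => 0) (by
          intro p hp
          obtain ⟨hp1, hp2⟩ := Finset.mem_filter.1 hp
          have hp3 := Finset.HasAntidiagonal.mem_antidiagonal.1 hp1
          rcases Nat.eq_zero_or_pos p.1 with h | h
          · have e : (fun q => ld (a q) p.1 * a q p.2) = fun _ : ℕ => (0 : ℂ) := by
              funext q
              rw [h, ld_zero, zero_mul]
            rw [e]
            unfold Ex
            simp
          · have h1 := ih p.1 (by omega) h
            have h2 := (h1.mul (ha p.2)).low (B := c * ((n + 1) * (n + 1 + 1) / 2)) (by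
              have := tri_le hc h (Nat.pos_of_ne_zero hp2)
              rw [hp3] at this
              exact this)
            exact h2)
      simpa using this
    have h1 := ((ha (n + 1)).const_mul ((n + 1 : ℕ) : ℂ)).add (hsum.const_mul (-1))
    rw [if_neg (Nat.succ_ne_zero n)] at h1
    have h2 := h1.congr (fun q => (hrec q).symm)
    simpa using h2

end Vale.Agent.P275.R2.H855
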